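import Mathlib

open Polynomial

namespace Vale.Agent.P199

/-- Specialisation of linear independence: rows of a polynomial matrix which are linearly
independent over `F[X]` stay independent at all but finitely many points. -/
theorem spec_indep {F : Type*} [Field F] {ι κ : Type*} [Fintype ι] [Fintype κ] [DecidableEq κ]
    (P : Matrix κ ι F[X])
    (h : ∀ y : κ → F[X], Matrix.vecMul y P = 0 → y = 0) :
    ∃ d : F[X], d ≠ 0 ∧ ∀ c : F, d.eval c ≠ 0 →
      ∀ y : κ → F, Matrix.vecMul y (P.map (eval c)) = 0 → y = 0 := by
  classical
  let K := FractionRing F[X]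
  have hinj : Function.Injective (algebraMap F[X] K) := IsFractionRing.injective F[X] K
  let PK : Matrix κ ι K := P.map (algebraMap F[X] K)
  have hK : ∀ y : κ → K, Matrix.vecMul y PK = 0 → y = 0 := by
    intro y hy
    obtain ⟨b, hb⟩ := IsLocalization.exist_integer_multiples_of_finite
      (nonZeroDivisors F[X]) y
    choose z hz using hb
    have hz0 : z = 0 := by
      apply h
      funext k
      apply hinj
      have hyk := congrFun hy k
      simp only [Matrix.vecMul, dotProduct, Pi.zero_apply, map_zero, map_sum, map_mul] at hyk ⊢
      have : ∀ i, algebraMap F[X] K (z i) = (algebraMap F[X] K b) * y i := by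
        intro i
        have := hz i
        rw [this, Algebra.smul_def]
      simp only [this]
      have h2 : ∑ x, algebraMap F[X] K b * y x * algebraMap F[X] K (P x k)
          = algebraMap F[X] K b * ∑ x, y x * PK x k := by
        rw [Finset.mul_sum]
        exact Finset.sum_congr rfl fun x _ => by simp [PK, mul_assoc]
      rw [h2, hyk, mul_zero]
    funext i
    have hb0 : algebraMap F[X] K b ≠ 0 := by
      have := nonZeroDivisors.coe_ne_zero b
      exact fun hh => this (hinj (by rw [hh, map_zero]))
    have h3 : algebraMap F[X] K b * y i = 0 := by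
      have := hz i
      rw [Algebra.smul_def] at this
      rw [← this, hz0]; simp
    exact (mul_eq_zero.mp h3).resolve_left hb0
  -- left inverse
  obtain ⟨g, hg⟩ := LinearMap.exists_leftInverse_of_injective (Matrix.vecMulLinear PK)
    (LinearMap.ker_eq_bot'.mpr fun y hy => hK y hy)
  let Q : Matrix ι κ K := fun i k => g (Pi.single i 1) k
  have hQ : PK * Q = 1 := by
    ext i j
    have h1 : g (PK i) = Pi.single i 1 := by
      change g (fun k => PK i k) = _
      have := congrArg (fun f => f (Pi.single i 1)) hg
      simpa [Matrix.vecMulLinear_apply, Matrix.row] using this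
    have h2 : (PK * Q) i j = g (PK i) j := by
      rw [Matrix.mul_apply]
      have : PK i = ∑ k, PK i k • (Pi.single k (1:K) : ι → K) := by
        funext l
        simp [Finset.sum_apply, Pi.single_apply]
      conv_rhs => rw [this]
      simp [map_sum, Q, Finset.sum_apply]
    rw [h2, h1, Matrix.one_apply, Pi.single_apply]
    simp [eq_comm]
  obtain ⟨b, hb⟩ := IsLocalization.exist_integer_multiples_of_finite
      (nonZeroDivisors F[X]) (fun p : ι × κ => Q p.1 p.2)
  choose R hR using hb
  refine ⟨b, nonZeroDivisors.coe_ne_zero b, fun c hc y hy => ?_⟩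
  let R' : Matrix ι κ F[X] := fun i k => R (i, k)
  have hPR : P * R' = (b : F[X]) • (1 : Matrix κ κ F[X]) := by
    ext1 i j
    apply hinj
    have h1 := congrFun (congrFun hQ i) j
    rw [Matrix.mul_apply] at h1 ⊢
    rw [map_sum]
    have h2 : ∀ k, algebraMap F[X] K (P i k * R' k j) = algebraMap F[X] K b * (PK i k * Q k j) := by
      intro k
      have := hR (k, j)
      rw [Algebra.smul_def] at this
      rw [map_mul]
      simp only [R', this, PK, Matrix.map_apply]
      ring
    simp only [h2, ← Finset.mul_sum, h1, Matrix.smul_apply, smul_eq_mul, map_mul,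
      Matrix.one_apply]
    split_ifs <;> simp
  have hev : (P.map (eval c)) * (R'.map (eval c)) = (eval c (b : F[X])) • (1 : Matrix κ κ F) := by
    have := congrArg (fun M : Matrix κ κ F[X] => M.map (evalRingHom c)) hPR
    simp only [Matrix.map_mul] at this
    have e1 : P.map (evalRingHom c) = P.map (eval c) := rfl
    have e2 : R'.map (evalRingHom c) = R'.map (eval c) := rfl
    rw [e1, e2] at this
    rw [this]
    ext i j
    simp [Matrix.map_apply, Matrix.smul_apply, Matrix.one_apply]
    split_ifs <;> simp
  have h4 : Matrix.vecMul y ((P.map (eval c)) * (R'.map (eval c))) = 0 := by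
    rw [← Matrix.vecMul_vecMul, hy, Matrix.zero_vecMul]
  rw [hev, Matrix.vecMul_smul, Matrix.vecMul_one] at h4
  funext i
  have := congrFun h4 i
  simp only [Pi.smul_apply, smul_eq_mul, Pi.zero_apply, mul_eq_zero] at this
  exact this.resolve_left hc

end Vale.Agent.P199
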