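import Mathlib
import Vale.Agent.Lib.P199.Spec

open Polynomial

namespace Vale.Agent.P199

variable {F D : Type*} [Field F] [DivisionRing D] [Algebra F D]

/-- apply an `F`-linear functional to all coefficients -/
noncomputable def coeffMap (f : D →ₗ[F] F) (p : D[X]) : F[X] :=
  ∑ k ∈ p.support, monomial k (f (p.coeff k))

theorem coeff_coeffMap (f : D →ₗ[F] F) (p : D[X]) (n : ℕ) :
    (coeffMap f p).coeff n = f (p.coeff n) := by
  classical
  rw [coeffMap, finsetSum_coeff]
  simp only [coeff_monomial]
  rw [Finset.sum_ite_eq' p.support n]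
  split_ifs with h
  · rfl
  · rw [notMem_support_iff.mp h, map_zero]

theorem coeffMap_map_mul (f : D →ₗ[F] F) (h : F[X]) (p : D[X]) :
    coeffMap f (h.map (algebraMap F D) * p) = h * coeffMap f p := by
  ext n
  rw [coeff_coeffMap, coeff_mul, coeff_mul, map_sum]
  refine Finset.sum_congr rfl fun x _ => ?_
  rw [coeff_map, coeff_coeffMap, ← Algebra.smul_def, map_smul, smul_eq_mul]

theorem coeffMap_sum {ι : Type*} (f : D →ₗ[F] F) (s : Finset ι) (p : ι → D[X]) :
    coeffMap f (∑ i ∈ s, p i) = ∑ i ∈ s, coeffMap f (p i) := by
  ext n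
  rw [coeff_coeffMap, finsetSum_coeff, map_sum, finsetSum_coeff]
  simp only [coeff_coeffMap]

/-- evaluation at a central point as a ring homomorphism -/
noncomputable def evC (D : Type*) [DivisionRing D] [Algebra F D] (c : F) : D[X] →+* D :=
  eval₂RingHom' (RingHom.id D) (algebraMap F D c) fun a => (Algebra.commutes c a).symm

theorem evC_apply (c : F) (p : D[X]) : evC D c p = p.eval (algebraMap F D c) := rfl

theorem eval_coeffMap (f : D →ₗ[F] F) (p : D[X]) (c : F) :
    (coeffMap f p).eval c = f (evC D c p) := by
  have hd : (coeffMap f p).natDegree ≤ p.natDegree := by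
    rw [natDegree_le_iff_coeff_eq_zero]
    intro N hN
    rw [coeff_coeffMap, coeff_eq_zero_of_natDegree_lt hN, map_zero]
  rw [evC_apply, eval_eq_sum_range' (Nat.lt_succ_of_le hd), eval_eq_sum_range, map_sum]
  refine Finset.sum_congr rfl fun k _ => ?_
  rw [coeff_coeffMap, ← map_pow, ← Algebra.commutes, ← Algebra.smul_def, map_smul, smul_eq_mul,
    mul_comm]

theorem exists_relation [Uncountable F] [Algebra.IsAlgebraic F D] (q : D[X]) :
    ∃ (n : ℕ) (h : Fin (n + 1) → F[X]), h ≠ 0 ∧
      ∑ j, (h j).map (algebraMap F D) * q ^ (j : ℕ) = 0 := by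
  classical
  by_contra hcon
  push Not at hcon
  -- for every `n`, a nonzero polynomial `d n` controlling specialisations
  have key : ∀ n : ℕ, ∃ d : F[X], d ≠ 0 ∧ ∀ c : F, d.eval c ≠ 0 →
      ∀ y : Fin (n + 1) → F, ∑ j, y j • (evC D c q) ^ (j : ℕ) = 0 → y = 0 := by
    intro n
    let b := Module.Basis.ofVectorSpace F D
    let I : Finset (Module.Basis.ofVectorSpaceIndex F D) :=
      (Finset.univ : Finset (Fin (n + 1))).biUnion fun j =>
        (q ^ (j : ℕ)).support.biUnion fun k => (b.repr ((q ^ (j : ℕ)).coeff k)).support
    let P : Matrix (Fin (n + 1)) I F[X] := fun j i => coeffMap (b.coord i) (q ^ (j : ℕ))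
    obtain ⟨d, hd, hdc⟩ := spec_indep P (by
      intro y hy
      by_contra hy0
      apply hcon n y hy0
      have h1 : ∀ i, coeffMap (b.coord i)
          (∑ j, (y j).map (algebraMap F D) * q ^ (j : ℕ)) = 0 := by
        intro i
        rw [coeffMap_sum]
        simp only [coeffMap_map_mul]
        by_cases hi : i ∈ I
        · have := congrFun hy ⟨i, hi⟩
          simpa [Matrix.vecMul, dotProduct, P] using this
        · refine Finset.sum_eq_zero fun j _ => ?_
          have : coeffMap (b.coord i) (q ^ (j : ℕ)) = 0 := by
            ext k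
            rw [coeff_coeffMap, coeff_zero, Module.Basis.coord_apply]
            by_contra hne
            apply hi
            simp only [I, Finset.mem_biUnion, Finset.mem_univ, true_and]
            refine ⟨j, k, ?_, ?_⟩
            · rw [mem_support_iff]
              intro h0
              rw [h0, map_zero] at hne
              exact hne rfl
            · rwa [Finsupp.mem_support_iff]
          rw [this, mul_zero]
      ext k
      apply b.ext_elem
      intro i
      have := congrArg (fun p => coeff p k) (h1 i)
      simpa [coeff_coeffMap] using this)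
    refine ⟨d, hd, fun c hc y hy => hdc c hc y ?_⟩
    funext i
    have h2 := congrArg (b.coord i) hy
    rw [map_sum, map_zero] at h2
    simp only [Matrix.vecMul, dotProduct, Pi.zero_apply]
    rw [← h2]
    refine Finset.sum_congr rfl fun j _ => ?_
    rw [map_smul, smul_eq_mul, Matrix.map_apply]
    change y j * (coeffMap (b.coord i) (q ^ (j : ℕ))).eval c = _
    rw [eval_coeffMap, map_pow]
  choose d hd hdc using key
  have hcount : (⋃ n, {c : F | (d n).eval c = 0}).Countable := by
    refine Set.countable_iUnion fun n => ?_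
    have : {c : F | (d n).eval c = 0} ⊆ ((d n).roots.toFinset : Set F) := by
      intro c hc
      simp only [Multiset.mem_toFinset, Finset.mem_coe, mem_roots (hd n)]
      exact hc
    exact (Finset.finite_toSet _).subset this |>.countable
  obtain ⟨c, hc⟩ : ∃ c : F, c ∉ (⋃ n, {c : F | (d n).eval c = 0}) := by
    by_contra hall
    push Not at hall
    have : (Set.univ : Set F).Countable := hcount.mono fun x _ => hall x
    exact Set.not_countable_univ this
  simp only [Set.mem_iUnion, Set.mem_ofPred_eq, not_exists] at hc
  obtain ⟨p, hp0, hp⟩ := Algebra.IsAlgebraic.isAlgebraic (R := F) (evC D c q)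
  have := hdc p.natDegree c (hc _) (fun j => p.coeff j) (by
    rw [aeval_eq_sum_range] at hp
    rw [← hp, Finset.sum_range])
  apply hp0
  have h3 := congrFun this (Fin.last _)
  simp only [Fin.val_last, Pi.zero_apply] at h3
  rwa [coeff_natDegree, leadingCoeff_eq_zero] at h3

/-- Over an uncountable central subfield `F` over which `D` is algebraic, every nonzero polynomial
`q ∈ D[X]` divides a nonzero polynomial with coefficients in `F`. -/
theorem exists_central_multiple [Uncountable F] [Algebra.IsAlgebraic F D] (q : D[X])
    (hq : q ≠ 0) :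
    ∃ (c : F[X]) (g : D[X]), c ≠ 0 ∧ c.map (algebraMap F D) = g * q := by
  obtain ⟨n, h, hh, hrel⟩ := exists_relation (F := F) q
  induction n with
  | zero =>
    exfalso
    apply hh
    funext j
    have hj : j = 0 := by ext; omega
    rw [Fin.sum_univ_one] at hrel
    simp only [Fin.isValue, Fin.val_zero, pow_zero, mul_one] at hrel
    rw [Polynomial.map_eq_zero] at hrel
    rw [hj, hrel]; rfl
  | succ n ih =>
    rw [Fin.sum_univ_succ] at hrel
    simp only [Fin.val_zero, pow_zero, mul_one, Fin.val_succ, pow_succ, ← mul_assoc] at hrel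
    rw [← Finset.sum_mul] at hrel
    by_cases h0 : h 0 = 0
    · rw [h0, Polynomial.map_zero, zero_add] at hrel
      refine ih (fun j => h j.succ) ?_ ((mul_eq_zero.mp hrel).resolve_right hq)
      intro hz
      apply hh
      funext j
      refine Fin.cases ?_ (fun i => ?_) j
      · exact h0
      · exact congrFun hz i
    · refine ⟨h 0, -(∑ j : Fin (n + 1), (h j.succ).map (algebraMap F D) * q ^ (j : ℕ)), h0, ?_⟩
      rw [neg_mul]
      exact eq_neg_of_add_eq_zero_left hrel

end Vale.Agent.P199
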