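import Mathlib
import Vale.Agent.Lib.P199.Uncountable

open Polynomial

namespace Vale.Agent.P199

variable {F D V : Type*} [Field F] [DivisionRing D] [Algebra F D]
  [AddCommGroup V] [Module F V] [Module D V] [IsScalarTower F D V]

/-- `D[X]` acts on a `D`-module `V` with `D`-linear endomorphism `u`. -/
noncomputable def polyAct (u : Module.End D V) : D[X] →+* Module.End F V :=
  eval₂RingHom' (Module.toModuleEnd F V) (u.restrictScalars F) fun a => by
    ext v
    exact (u.map_smul a v).symm

theorem polyAct_C_mul_X_pow (u : Module.End D V) (a : D) (n : ℕ) (v : V) :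
    polyAct (F := F) u (C a * X ^ n) v = a • (u ^ n) v := by
  have h1 : polyAct (F := F) u X = u.restrictScalars F := by
    simp [polyAct, eval₂RingHom']
  have h2 : polyAct (F := F) u (C a) = Module.toModuleEnd F V a := by
    simp [polyAct, eval₂RingHom']
  have h3 : ∀ n : ℕ, ∀ v : V, ((u.restrictScalars F) ^ n) v = (u ^ n) v := by
    intro n
    induction n with
    | zero => intro v; simp
    | succ n ih =>
      intro v
      rw [pow_succ, pow_succ, Module.End.mul_apply, Module.End.mul_apply, ih]
      rfl
  rw [map_mul, map_pow, h1, h2, Module.End.mul_apply, h3]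
  rfl

theorem polyAct_map (u : Module.End D V) (c : F[X]) (v : V) :
    polyAct (F := F) u (c.map (algebraMap F D)) v = (aeval u c) v := by
  induction c using Polynomial.induction_on' with
  | add p q hp hq => simp [hp, hq]
  | monomial n a =>
    rw [← C_mul_X_pow_eq_monomial, Polynomial.map_mul, Polynomial.map_pow, map_X, map_C,
      polyAct_C_mul_X_pow, map_mul, map_pow, aeval_X, aeval_C, Module.End.mul_apply,
      algebraMap_smul]
    rfl

/-- If `D` is algebraic over an uncountable central subfield `F` and `V` is a
finite-dimensional left `D`-vector space, then `End_D(V)` is algebraic over `F`. -/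
theorem isAlgebraic_end [Uncountable F] [Algebra.IsAlgebraic F D] [Module.Finite D V]
    (u : Module.End D V) : IsAlgebraic F u := by
  classical
  have hv : ∀ v : V, ∃ c : F[X], c ≠ 0 ∧ (aeval u c) v = 0 := by
    intro v
    -- dependence among the `u ^ i v`
    have hdep : ¬ LinearIndependent D (fun i : Fin (Module.finrank D V + 1) => (u ^ (i : ℕ)) v) := by
      intro hli
      have := hli.fintype_card_le_finrank
      simp at this
    rw [Fintype.linearIndependent_iff] at hdep
    push Not at hdep
    obtain ⟨g, hg, i, hi⟩ := hdep
    let q : D[X] := ∑ i : Fin (Module.finrank D V + 1), C (g i) * X ^ (i : ℕ)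
    have hq : q ≠ 0 := by
      intro h0
      apply hi
      have := congrArg (fun p => coeff p (i : ℕ)) h0
      simp only [q, finsetSum_coeff, coeff_C_mul, coeff_X_pow, coeff_zero] at this
      rw [← this, Finset.sum_eq_single i]
      · simp
      · intro j _ hj
        rw [if_neg, mul_zero]
        intro hh
        exact hj (Fin.ext hh.symm)
      · intro h; exact absurd (Finset.mem_univ _) h
    have hqv : polyAct (F := F) u q v = 0 := by
      rw [← hg, map_sum, LinearMap.sum_apply]
      exact Finset.sum_congr rfl fun j _ => polyAct_C_mul_X_pow u _ _ _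
    obtain ⟨c, r, hc, hcr⟩ := exists_central_multiple (F := F) q hq
    refine ⟨c, hc, ?_⟩
    rw [← polyAct_map, hcr, map_mul, Module.End.mul_apply, hqv, map_zero]
  choose c hc0 hc using hv
  let b := Module.finBasis D V
  refine ⟨∏ i, c (b i), Finset.prod_ne_zero_iff.mpr fun i _ => hc0 _, ?_⟩
  apply b.ext
  intro i
  rw [← Finset.mul_prod_erase _ _ (Finset.mem_univ i), mul_comm, map_mul, Module.End.mul_apply,
    hc, map_zero, LinearMap.zero_apply]

end Vale.Agent.P199
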