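import Mathlib

open TensorProduct

namespace Vale.Agent.P199

variable {F D L : Type*} [Field F] [DivisionRing D] [Algebra F D] [Field L] [Algebra F L]

theorem repr_mul_tmul_one {ι : Type*} (b : Module.Basis ι F L) (z : D ⊗[F] L) (d : D) (i : ι) :
    (Algebra.TensorProduct.basis D b).repr (z * (d ⊗ₜ 1)) i =
      (Algebra.TensorProduct.basis D b).repr z i * d := by
  induction z using TensorProduct.induction_on with
  | zero => simp
  | add x y hx hy => rw [add_mul, map_add, Finsupp.add_apply, hx, hy, map_add, Finsupp.add_apply,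
      add_mul]
  | tmul a l =>
    rw [Algebra.TensorProduct.tmul_mul_tmul, mul_one, Algebra.TensorProduct.basis_repr_tmul,
      Algebra.TensorProduct.basis_repr_tmul]
    simp only [Finsupp.smul_apply, Finsupp.mapRange_apply, smul_eq_mul]
    rw [mul_assoc, mul_assoc, Algebra.commutes]

/-- `D ⊗[F] L` is a simple ring for `D` a central division algebra and `L` a field. -/
theorem isSimpleRing_tensor [Algebra.IsCentral F D] : IsSimpleRing (D ⊗[F] L) := by
  classical
  let b := Module.Basis.ofVectorSpace F L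
  let B := Algebra.TensorProduct.basis D b
  rw [isSimpleRing_iff_isTwoSided_imp]
  refine ⟨inferInstance, fun I hI => ?_⟩
  by_cases hbot : I = ⊥
  · exact Or.inl hbot
  right
  -- minimal support
  obtain ⟨z0, hz0, hz0ne⟩ := Submodule.exists_mem_ne_zero_of_ne_bot hbot
  have hex : ∃ n, ∃ z ∈ I, z ≠ 0 ∧ (B.repr z).support.card = n := ⟨_, z0, hz0, hz0ne, rfl⟩
  obtain ⟨z, hzI, hz, hzc⟩ := Nat.find_spec hex
  have hmin : ∀ w ∈ I, w ≠ 0 → (B.repr z).support.card ≤ (B.repr w).support.card := by
    intro w hw hw0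
    rw [hzc]
    exact Nat.find_min' hex ⟨w, hw, hw0, rfl⟩
  have hreprz : B.repr z ≠ 0 := by
    intro h; apply hz; exact (LinearEquiv.map_eq_zero_iff B.repr).mp h
  obtain ⟨i0, hi0⟩ := Finsupp.support_nonempty_iff.mpr hreprz
  rw [Finsupp.mem_support_iff] at hi0
  -- rescale
  set a := B.repr z i0 with ha
  let w : D ⊗[F] L := (a⁻¹ ⊗ₜ 1) * z
  have hwI : w ∈ I := I.mul_mem_left _ hzI
  have hsm : ∀ (d : D) (x : D ⊗[F] L), (d ⊗ₜ[F] (1 : L)) * x = d • x := by
    intro d x
    induction x using TensorProduct.induction_on with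
    | zero => simp
    | add x y hx hy => rw [mul_add, hx, hy, smul_add]
    | tmul p q => rw [Algebra.TensorProduct.tmul_mul_tmul, one_mul, smul_tmul', smul_eq_mul]
  have hwr : ∀ i, B.repr w i = a⁻¹ * B.repr z i := by
    intro i
    simp only [w, hsm, map_smul, Finsupp.smul_apply, smul_eq_mul]
  have hw1 : B.repr w i0 = 1 := by rw [hwr, ← ha, inv_mul_cancel₀ hi0]
  have hwsupp : (B.repr w).support ⊆ (B.repr z).support := by
    intro i hi
    rw [Finsupp.mem_support_iff] at hi ⊢
    intro h; apply hi; rw [hwr, h, mul_zero]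
  have hcomm : ∀ d : D, (d ⊗ₜ[F] (1 : L)) * w = w * (d ⊗ₜ 1) := by
    intro d
    by_contra hne
    have hne' : (d ⊗ₜ[F] (1 : L)) * w - w * (d ⊗ₜ 1) ≠ 0 := sub_ne_zero.mpr hne
    have hin : (d ⊗ₜ[F] (1 : L)) * w - w * (d ⊗ₜ 1) ∈ I :=
      I.sub_mem (I.mul_mem_left _ hwI) (hI.mul_mem_of_left _ hwI)
    have h1 := hmin _ hin hne'
    have hlt : (B.repr ((d ⊗ₜ[F] (1 : L)) * w - w * (d ⊗ₜ 1))).support ⊂
        (B.repr z).support := by
      have hre : ∀ i, B.repr ((d ⊗ₜ[F] (1 : L)) * w - w * (d ⊗ₜ 1)) i =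
          d * B.repr w i - B.repr w i * d := by
        intro i
        rw [map_sub, Finsupp.sub_apply, hsm, map_smul, Finsupp.smul_apply, smul_eq_mul,
          repr_mul_tmul_one]
      refine Finset.ssubset_iff_subset_ne.mpr ⟨?_, ?_⟩
      · intro i hi
        apply hwsupp
        rw [Finsupp.mem_support_iff] at hi ⊢
        intro h; apply hi; rw [hre, h, mul_zero, zero_mul, sub_zero]
      · intro heq
        have : i0 ∈ (B.repr z).support := Finsupp.mem_support_iff.mpr hi0
        rw [← heq, Finsupp.mem_support_iff, hre, hw1] at this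
        apply this; simp
    exact absurd (Finset.card_lt_card hlt) (not_lt.mpr h1)
  -- all coordinates of `w` are central
  have hcen : ∀ i, ∃ f : F, algebraMap F D f = B.repr w i := by
    intro i
    have h1 : B.repr w i ∈ Subalgebra.center F D := by
      rw [Subalgebra.mem_center_iff]
      intro d
      have h2 := DFunLike.congr_fun (congrArg B.repr (hcomm d)) i
      rw [hsm, map_smul, Finsupp.smul_apply, smul_eq_mul, repr_mul_tmul_one] at h2
      exact h2
    rw [Algebra.IsCentral.center_eq_bot, Algebra.mem_bot] at h1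
    exact h1
  choose f hf using hcen
  let l : L := ∑ i ∈ (B.repr w).support, f i • b i
  have hwl : w = 1 ⊗ₜ l := by
    apply B.repr.injective
    ext i
    have h1 : B.repr ((1 : D) ⊗ₜ l) i = algebraMap F D (b.repr l i) := by
      simp only [B, Algebra.TensorProduct.basis_repr_tmul, one_smul, Finsupp.mapRange_apply]
    rw [h1]
    have h2 : b.repr l i = if i ∈ (B.repr w).support then f i else 0 := by
      simp only [l, map_sum, map_smul, Module.Basis.repr_self]
      rw [Finsupp.finsetSum_apply]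
      simp only [Finsupp.smul_apply, Finsupp.single_apply, smul_eq_mul, mul_ite, mul_one, mul_zero]
      rw [Finset.sum_ite_eq']
    rw [h2]
    split_ifs with hi
    · exact (hf i).symm
    · rw [map_zero, ← Finsupp.notMem_support_iff]; exact hi
  have hl : l ≠ 0 := by
    intro h
    rw [h, tmul_zero] at hwl
    rw [hwl, map_zero, Finsupp.zero_apply] at hw1
    exact zero_ne_one hw1
  rw [Ideal.eq_top_iff_one]
  have : (1 : D ⊗[F] L) = (1 ⊗ₜ l⁻¹) * w := by
    rw [hwl, Algebra.TensorProduct.tmul_mul_tmul, one_mul, inv_mul_cancel₀ hl]; rfl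
  rw [this]
  exact I.mul_mem_left _ hwI

end Vale.Agent.P199
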