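import Mathlib
import Vale.Agent.Lib.P199.SimpleTensor

open TensorProduct

namespace Vale.Agent.P199

theorem simple_iso {T : Type*} [Ring T] [IsSimpleRing T] [IsArtinianRing T]
    (S S' : Type*) [AddCommGroup S] [AddCommGroup S'] [Module T S] [Module T S']
    [IsSimpleModule T S] [IsSimpleModule T S'] : Nonempty (S ≃ₗ[T] S') := by
  let e1 : S ≃ₗ[T] LinearMap.range (LinearMap.inl T S S') :=
    LinearEquiv.ofInjective _ LinearMap.inl_injective
  let e2 : S' ≃ₗ[T] LinearMap.range (LinearMap.inr T S S') :=
    LinearEquiv.ofInjective _ LinearMap.inr_injective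
  haveI h1 : IsSimpleModule T (LinearMap.range (LinearMap.inl T S S')) :=
    IsSimpleModule.congr e1.symm
  haveI h2 : IsSimpleModule T (LinearMap.range (LinearMap.inr T S S')) :=
    IsSimpleModule.congr e2.symm
  obtain ⟨e⟩ := IsSimpleRing.isIsotypic T (S × S') (LinearMap.range (LinearMap.inr T S S'))
    (LinearMap.range (LinearMap.inl T S S'))
  exact ⟨e1.trans (e.trans e2.symm)⟩

variable {F D L V : Type*} [Field F] [DivisionRing D] [Algebra F D] [Field L] [Algebra F L]
  [AddCommGroup V] [Module D V] [Module F V] [IsScalarTower F D V]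

/-- The inclusion `End_D(V) → End_F(V)` as an `F`-algebra homomorphism. -/
def endRestrict (F D V : Type*) [Field F] [DivisionRing D] [Algebra F D]
    [AddCommGroup V] [Module D V] [Module F V] [IsScalarTower F D V] :
    Module.End D V →ₐ[F] Module.End F V where
  toFun f := f.restrictScalars F
  map_one' := rfl
  map_mul' _ _ := rfl
  map_zero' := rfl
  map_add' _ _ := rfl
  commutes' c := by
    ext v
    rfl

noncomputable def repAct (ρ : L →ₐ[F] Module.End D V) : D ⊗[F] L →ₐ[F] Module.End F V :=
  Algebra.TensorProduct.lift (Algebra.lsmul F F V : D →ₐ[F] Module.End F V)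
    ((endRestrict F D V).comp ρ) fun d x => by
      apply LinearMap.ext
      intro v
      exact ((ρ x).map_smul d v).symm

theorem repAct_tmul (ρ : L →ₐ[F] Module.End D V) (d : D) (x : L) (v : V) :
    repAct ρ (d ⊗ₜ x) v = d • ρ x v := by
  simp only [repAct, Algebra.TensorProduct.lift_tmul, Module.End.mul_apply]
  rfl

/-- The `D ⊗[F] L`-module structure on `V` given by a representation of `L`. -/
@[reducible] noncomputable def repModule (ρ : L →ₐ[F] Module.End D V) :
    Module (D ⊗[F] L) V :=
  Module.compHom V (repAct ρ).toRingHom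

theorem repModule_smul (ρ : L →ₐ[F] Module.End D V) (d : D) (x : L) (v : V) :
    (letI := repModule ρ; (d ⊗ₜ[F] x : D ⊗[F] L) • v) = d • ρ x v :=
  repAct_tmul ρ d x v

theorem repModule_tower (ρ : L →ₐ[F] Module.End D V) :
    (letI := repModule ρ; IsScalarTower D (D ⊗[F] L) V) := by
  letI := repModule ρ
  refine ⟨fun d t v => ?_⟩
  change repAct ρ (d • t) v = d • repAct ρ t v
  induction t using TensorProduct.induction_on with
  | zero => simp
  | add x y hx hy => rw [smul_add, map_add, LinearMap.add_apply, hx, hy, map_add,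
      LinearMap.add_apply, smul_add]
  | tmul p q => rw [smul_tmul', smul_eq_mul, repAct_tmul, repAct_tmul, mul_smul]

/-- `L` acts `D`-linearly (and compatibly with `F`) on an `m`-dimensional `D`-vector space. -/
def HasRep (F D L : Type*) [Field F] [DivisionRing D] [Algebra F D] [Field L] [Algebra F L]
    (m : ℕ) : Prop :=
  Nonempty (L →ₐ[F] Module.End D (Fin m → D))

theorem hasRep_of_rep [Module.Finite D V] (ρ : L →ₐ[F] Module.End D V) :
    HasRep F D L (Module.finrank D V) := by
  let e : V ≃ₗ[D] (Fin (Module.finrank D V) → D) := (Module.finBasis D V).equivFun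
  exact ⟨(e.conjAlgEquiv F).toAlgHom.comp ρ⟩

/-- restriction of a representation to a stable subspace -/
def subRep (ρ : L →ₐ[F] Module.End D V) (W : Submodule D V)
    (hW : ∀ x : L, ∀ w ∈ W, ρ x w ∈ W) : L →ₐ[F] Module.End D W where
  toFun x := (ρ x).restrict (hW x)
  map_one' := by ext; simp
  map_mul' x y := by ext; simp
  map_zero' := by ext; simp
  map_add' x y := by ext; simp
  commutes' c := by
    ext w
    simp

end Vale.Agent.P199
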