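import Mathlib
import Vale.Agent.Lib.P199.Rep

open TensorProduct

namespace Vale.Agent.P199

variable {F D L V : Type*} [Field F] [DivisionRing D] [Algebra F D] [Field L] [Algebra F L]
  [AddCommGroup V] [Module D V] [Module F V] [IsScalarTower F D V]

theorem isArtinian_tensor [FiniteDimensional F L] : IsArtinianRing (D ⊗[F] L) := by
  have : Module.Finite D (D ⊗[F] L) :=
    Module.Finite.of_basis (Algebra.TensorProduct.basis D (Module.finBasis F L))
  have h : IsScalarTower D (D ⊗[F] L) (D ⊗[F] L) := by
    refine ⟨fun d t v => ?_⟩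
    simp [smul_mul_assoc]
  exact isArtinian_of_tower D (inferInstance : IsArtinian D (D ⊗[F] L))

/-- the smallest positive dimension of a representation of `L` over `D` -/
noncomputable def repDim (F D L : Type*) [Field F] [DivisionRing D] [Algebra F D] [Field L]
    [Algebra F L] : ℕ := sInf {m | 0 < m ∧ HasRep F D L m}

/-- the regular representation: `L` acts on `D ⊗[F] L`. -/
theorem hasRep_finrank [FiniteDimensional F L] : HasRep F D L (Module.finrank F L) := by
  let b := Module.finBasis F L
  -- `L → Matrix (Fin d) (Fin d) F → Matrix (Fin d) (Fin d) (End_D D) ≃ End_D (Fin d → D)`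
  let f1 : L →ₐ[F] Matrix (Fin (Module.finrank F L)) (Fin (Module.finrank F L)) F :=
    Algebra.leftMulMatrix b
  let f2 : Matrix (Fin (Module.finrank F L)) (Fin (Module.finrank F L)) F →ₐ[F]
      Matrix (Fin (Module.finrank F L)) (Fin (Module.finrank F L)) (Module.End D D) :=
    (Algebra.ofId F (Module.End D D)).mapMatrix
  let f3 := (endVecAlgEquivMatrixEnd (Fin (Module.finrank F L)) F D D).symm
  exact ⟨(f3.toAlgHom.comp f2).comp f1⟩

theorem repDim_pos [FiniteDimensional F L] : 0 < repDim F D L ∧ HasRep F D L (repDim F D L) := by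
  have : (repDim F D L) ∈ {m | 0 < m ∧ HasRep F D L m} :=
    Nat.sInf_mem ⟨_, Module.finrank_pos, hasRep_finrank⟩
  exact this

theorem repDim_le {m : ℕ} (hm : 0 < m) (h : HasRep F D L m) : repDim F D L ≤ m :=
  Nat.sInf_le ⟨hm, h⟩

/-- a stable subspace of a representation of minimal dimension is trivial -/
theorem stable_eq_top [Module.Finite D V] (ρ : L →ₐ[F] Module.End D V)
    (hV : Module.finrank D V ≤ repDim F D L) (W : Submodule D V) (hW0 : W ≠ ⊥)
    (hW : ∀ x : L, ∀ w ∈ W, ρ x w ∈ W) : W = ⊤ := by
  apply Submodule.eq_top_of_finrank_eq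
  apply le_antisymm (Submodule.finrank_le W)
  refine hV.trans (repDim_le ?_ (hasRep_of_rep (subRep ρ W hW)))
  rw [Module.finrank_pos_iff]
  exact Submodule.nontrivial_iff_ne_bot.mpr hW0

/-- submodules for the tensor product action are stable `D`-subspaces -/
theorem submodule_smul_mem (ρ : L →ₐ[F] Module.End D V)
    (W : letI := repModule ρ; Submodule (D ⊗[F] L) V) :
    (∀ (d : D), ∀ w ∈ W, d • w ∈ W) ∧ (∀ (x : L), ∀ w ∈ W, ρ x w ∈ W) := by
  letI := repModule ρ
  constructor
  · intro d w hw
    have h := W.smul_mem (d ⊗ₜ (1 : L)) hw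
    rw [repModule_smul, map_one] at h
    exact h
  · intro x w hw
    have h := W.smul_mem ((1 : D) ⊗ₜ x) hw
    rw [repModule_smul, one_smul] at h
    exact h

theorem isSimpleModule_of_min [Module.Finite D V] [Nontrivial V]
    (ρ : L →ₐ[F] Module.End D V)
    (hV : Module.finrank D V ≤ repDim F D L) :
    letI := repModule ρ; IsSimpleModule (D ⊗[F] L) V := by
  letI := repModule ρ
  rw [isSimpleModule_iff]
  refine { toNontrivial := inferInstance, eq_bot_or_eq_top := fun W => ?_ }
  have hs := submodule_smul_mem ρ W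
  let W' : Submodule D V :=
    { carrier := W
      add_mem' := W.add_mem
      zero_mem' := W.zero_mem
      smul_mem' := hs.1 }
  by_cases h : W' = ⊥
  · left
    rw [Submodule.eq_bot_iff] at h ⊢
    exact h
  · right
    have := stable_eq_top ρ hV W' h hs.2
    rw [Submodule.eq_top_iff'] at this ⊢
    exact this

/-- Skolem–Noether: two representations of minimal dimension are conjugate. -/
theorem exists_conj [Algebra.IsCentral F D] [FiniteDimensional F L] [Module.Finite D V]
    [Nontrivial V] (ρ ρ' : L →ₐ[F] Module.End D V)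
    (hV : Module.finrank D V ≤ repDim F D L) :
    ∃ e : V ≃ₗ[D] V, ∀ x v, e (ρ x v) = ρ' x (e v) := by
  haveI := isSimpleRing_tensor (F := F) (D := D) (L := L)
  haveI := isArtinian_tensor (F := F) (D := D) (L := L)
  obtain ⟨e⟩ := @simple_iso (D ⊗[F] L) _ _ _ V V _ _ (repModule ρ) (repModule ρ')
    (isSimpleModule_of_min ρ hV) (isSimpleModule_of_min ρ' hV)
  have key : ∀ (d : D) (x : L) (v : V), e (d • ρ x v) = d • ρ' x (e v) := by
    intro d x v
    have h := @LinearEquiv.map_smul (D ⊗[F] L) V V _ _ _ (repModule ρ) (repModule ρ') e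
      (d ⊗ₜ x) v
    erw [repModule_smul ρ d x v, repModule_smul ρ' d x (e v)] at h
    exact h
  refine ⟨LinearEquiv.ofBijective
    { toFun := e
      map_add' := e.map_add
      map_smul' := fun d v => ?_ } e.bijective, fun x v => ?_⟩
  · have := key d 1 v
    simpa using this
  · have := key 1 x v
    simpa using this

end Vale.Agent.P199
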