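import Mathlib
import Vale.Agent.Lib.P199.RepDim

open TensorProduct

namespace Vale.Agent.P199

variable {F D L V : Type*} [Field F] [DivisionRing D] [Algebra F D] [Field L] [Algebra F L]
  [AddCommGroup V] [Module D V] [Module F V] [IsScalarTower F D V]

omit [Module F V] [IsScalarTower F D V] in
theorem finrank_eq_of_tensor_equiv {V' : Type*} [AddCommGroup V'] [Module D V']
    [Module (D ⊗[F] L) V] [Module (D ⊗[F] L) V'] [IsScalarTower D (D ⊗[F] L) V]
    [IsScalarTower D (D ⊗[F] L) V'] (e : V ≃ₗ[D ⊗[F] L] V') :
    Module.finrank D V = Module.finrank D V' :=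
  LinearEquiv.finrank_eq (e.restrictScalars D)

/-- every representation has dimension a multiple of the minimal one -/
theorem repDim_dvd [Algebra.IsCentral F D] [FiniteDimensional F L] [Module.Finite D V]
    (ρ : L →ₐ[F] Module.End D V) : repDim F D L ∣ Module.finrank D V := by
  have := isSimpleRing_tensor (F := F) (D := D) (L := L)
  have := isArtinian_tensor (F := F) (D := D) (L := L)
  rcases subsingleton_or_nontrivial V with hV | hV
  · rw [Module.finrank_zero_of_subsingleton]; exact dvd_zero _
  letI := repModule ρ
  have := repModule_tower ρ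
  have : Module.Finite (D ⊗[F] L) V := Module.Finite.of_restrictScalars_finite D _ _
  obtain ⟨n, hn, S, hS, ⟨e⟩⟩ := (IsSimpleRing.isIsotypic (D ⊗[F] L) V).linearEquiv_fun
  obtain ⟨hpos, ⟨ρ0⟩⟩ := repDim_pos (F := F) (D := D) (L := L)
  have hS0 : Module.finrank D S = repDim F D L := by
    have : Nonempty (Fin (repDim F D L)) := ⟨⟨0, hpos⟩⟩
    letI := repModule ρ0
    have := repModule_tower ρ0
    have := isSimpleModule_of_min ρ0 (by simp)
    obtain ⟨e'⟩ := simple_iso (T := D ⊗[F] L) S (Fin (repDim F D L) → D)
    have := finrank_eq_of_tensor_equiv e'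
    rw [this]; simp
  have h2 : Module.finrank D V = Module.finrank D (Fin n → S) :=
    finrank_eq_of_tensor_equiv e
  have : Module.Finite D S := by
    have : Module.Finite D (S.restrictScalars D) := inferInstance
    exact this
  rw [h2, Module.finrank_pi_fintype]
  simp [hS0]

theorem repDim_dvd_of_hasRep [Algebra.IsCentral F D] [FiniteDimensional F L] {m : ℕ}
    (h : HasRep F D L m) : repDim F D L ∣ m := by
  obtain ⟨ρ⟩ := h
  simpa using repDim_dvd ρ

section tower

variable {L' : Type*} [Field L'] [Algebra F L'] [Algebra L L'] [IsScalarTower F L L']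

/-- restriction: a representation of `L'` gives one of `L`. -/
theorem HasRep.restrict {m : ℕ} (h : HasRep F D L' m) : HasRep F D L m := by
  obtain ⟨ρ⟩ := h
  exact ⟨ρ.comp (IsScalarTower.toAlgHom F L L')⟩

/-- induction: a representation of `L` of dimension `m` gives one of `L'` of dimension
`[L' : L] * m`. -/
theorem HasRep.induce [FiniteDimensional L L'] {m : ℕ} (h : HasRep F D L m) :
    HasRep F D L' (Module.finrank L L' * m) := by
  obtain ⟨ρ⟩ := h
  let b := Module.finBasis L L'
  let f1 : L' →ₐ[F] Matrix (Fin (Module.finrank L L')) (Fin (Module.finrank L L')) L :=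
    (Algebra.leftMulMatrix b).restrictScalars F
  let f2 : Matrix (Fin (Module.finrank L L')) (Fin (Module.finrank L L')) L →ₐ[F]
      Matrix (Fin (Module.finrank L L')) (Fin (Module.finrank L L')) (Module.End D (Fin m → D)) :=
    ρ.mapMatrix
  let f3 := (endVecAlgEquivMatrixEnd (Fin (Module.finrank L L')) F D (Fin m → D)).symm
  have := hasRep_of_rep ((f3.toAlgHom.comp f2).comp f1)
  rw [Module.finrank_pi_fintype] at this
  simpa using this

theorem repDim_dvd_repDim [Algebra.IsCentral F D] [FiniteDimensional F L']
    [FiniteDimensional F L] : repDim F D L ∣ repDim F D L' :=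
  repDim_dvd_of_hasRep (repDim_pos (F := F) (D := D) (L := L')).2.restrict

theorem repDim_dvd_mul [Algebra.IsCentral F D] [FiniteDimensional F L']
    [FiniteDimensional F L] : repDim F D L' ∣ Module.finrank L L' * repDim F D L := by
  have : FiniteDimensional L L' := FiniteDimensional.right F L L'
  exact repDim_dvd_of_hasRep (repDim_pos (F := F) (D := D) (L := L)).2.induce

end tower

end Vale.Agent.P199
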