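import Mathlib
import Vale.Agent.Lib.P199.RepDvd

open IntermediateField

namespace Vale.Agent.P199

theorem repDim_congr {F D L L' : Type*} [Field F] [DivisionRing D] [Algebra F D] [Field L]
    [Algebra F L] [Field L'] [Algebra F L'] (e : L ≃ₐ[F] L') :
    repDim F D L = repDim F D L' := by
  unfold repDim
  congr 1
  ext m
  constructor
  · rintro ⟨h, ⟨ρ⟩⟩
    exact ⟨h, ⟨ρ.comp e.symm.toAlgHom⟩⟩
  · rintro ⟨h, ⟨ρ⟩⟩
    exact ⟨h, ⟨ρ.comp e.toAlgHom⟩⟩

/-- An element of `H` normalising `K` and not in `K` gives a nontrivial automorphism of the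
fixed field of `K` over the fixed field of `H`. -/
theorem exists_restricted_aut {F N : Type*} [Field F] [Field N] [Algebra F N]
    [FiniteDimensional F N]
    (H K : Subgroup (N ≃ₐ[F] N)) (hle : fixedField H ≤ fixedField K)
    (g : N ≃ₐ[F] N) (hgH : g ∈ H) (hgK : g ∉ K)
    (hn : ∀ f ∈ K, g⁻¹ * f * g ∈ K) :
    ∃ σ : fixedField K →ₐ[F] fixedField K,
      (∀ x : fixedField H, σ (inclusion hle x) = inclusion hle x) ∧ ∃ y, σ y ≠ y := by
  have hg : ∀ x ∈ fixedField K, g x ∈ fixedField K := by
    intro x hx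
    rw [mem_fixedField_iff] at hx ⊢
    intro f hf
    have h7 : (g⁻¹ * f * g) x = x := hx _ (hn f hf)
    have h8 : f * g = g * (g⁻¹ * f * g) := by group
    calc f (g x) = (f * g) x := rfl
      _ = (g * (g⁻¹ * f * g)) x := by rw [h8]
      _ = g ((g⁻¹ * f * g) x) := rfl
      _ = g x := by rw [h7]
  let σ : fixedField K →ₐ[F] fixedField K :=
    { toFun := fun x => ⟨g x, hg x x.2⟩
      map_one' := Subtype.ext (map_one g)
      map_mul' := fun x y => Subtype.ext (map_mul g _ _)
      map_zero' := Subtype.ext (map_zero g)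
      map_add' := fun x y => Subtype.ext (map_add g _ _)
      commutes' := fun x => Subtype.ext (g.commutes x) }
  refine ⟨σ, fun x => Subtype.ext ((mem_fixedField_iff _ _).mp x.2 g hgH), ?_⟩
  by_contra hno
  push Not at hno
  apply hgK
  rw [← fixingSubgroup_fixedField K, IntermediateField.mem_fixingSubgroup_iff]
  intro x hx
  exact congrArg Subtype.val (hno ⟨x, hx⟩)

theorem repDim_step {F D N : Type*} [Field F] [DivisionRing D] [Algebra F D]
    [Algebra.IsCentral F D] [Field N] [Algebra F N] [FiniteDimensional F N]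
    (E1 E2 : IntermediateField F N) (hle : E1 ≤ E2) (p a : ℕ) (hp : p.Prime) (ha : 0 < a)
    (h1 : Module.finrank E2 N = a) (h2 : Module.finrank E1 N = a * p) :
    repDim F D E1 = repDim F D E2 ∨ repDim F D E2 = p * repDim F D E1 := by
  let : Algebra E1 E2 := (inclusion hle).toRingHom.toAlgebra
  have : IsScalarTower F E1 E2 := IsScalarTower.of_algebraMap_eq fun x => rfl
  have : IsScalarTower E1 E2 N := IsScalarTower.of_algebraMap_eq fun x => rfl
  have hrank : Module.finrank E1 E2 = p := by
    have h3 := Module.finrank_mul_finrank E1 E2 N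
    rw [h1, h2, mul_comm] at h3
    exact Nat.eq_of_mul_eq_mul_left ha h3
  obtain ⟨t, ht⟩ := repDim_dvd_repDim (F := F) (D := D) (L := E1) (L' := E2)
  have hd2 := repDim_dvd_mul (F := F) (D := D) (L := E1) (L' := E2)
  rw [hrank, ht, mul_comm p] at hd2
  have hpos : 0 < repDim F D E1 := repDim_pos.1
  have htp : t ∣ p := Nat.dvd_of_mul_dvd_mul_left hpos hd2
  rcases (Nat.dvd_prime hp).mp htp with h1 | h1
  · left; rw [ht, h1, mul_one]
  · right; rw [ht, h1, mul_comm]

theorem exists_normal_subgroup {G : Type*} [Group G] [Finite G] (p i : ℕ) [hp : Fact p.Prime]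
    (H : Subgroup G) (hH : Nat.card H = p ^ (i + 1)) :
    ∃ K : Subgroup G, Nat.card K = p ^ i ∧ K ≤ H ∧ (∀ g ∈ H, ∀ f ∈ K, g⁻¹ * f * g ∈ K) ∧
      ∃ g ∈ H, g ∉ K := by
  obtain ⟨K', hK'⟩ := Sylow.exists_subgroup_card_pow_prime (G := H) p (n := i)
    (by rw [hH]; exact pow_dvd_pow p (Nat.le_succ i))
  have hidx : K'.index = p := by
    have h1 := K'.card_mul_index
    rw [hK', hH, pow_succ] at h1
    exact Nat.eq_of_mul_eq_mul_left (pow_pos hp.out.pos i) h1
  have hnormal : K'.Normal := by
    apply Subgroup.normal_of_index_eq_minFac_card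
    rw [hidx, hH, Nat.Prime.pow_minFac hp.out (Nat.succ_ne_zero i)]
  have hK : Nat.card (K'.map H.subtype) = p ^ i := by
    rw [← hK']
    exact Subgroup.card_map_of_injective H.subtype_injective
  have hKH : K'.map H.subtype ≤ H := Subgroup.map_subtype_le K'
  refine ⟨K'.map H.subtype, hK, hKH, ?_, ?_⟩
  · rintro g hg f ⟨f', hf', rfl⟩
    refine ⟨⟨g, hg⟩⁻¹ * f' * ⟨g, hg⟩, ?_, rfl⟩
    have := hnormal.conj_mem f' hf' (⟨g, hg⟩⁻¹)
    simpa using this
  · by_contra hall
    push Not at hall
    have : H = K'.map H.subtype := le_antisymm hall hKH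
    have h5 : p ^ (i + 1) = p ^ i := by rw [← hH, ← hK, ← this]
    have := Nat.pow_right_injective hp.out.two_le h5
    omega

/-- Sylow step: if `p ^ k` divides the order of the Galois group but not the minimal dimension
of a representation of `N`, then somewhere in the tower the minimal dimension does not change in
a nontrivial step with a nontrivial automorphism. -/
theorem exists_good_pair {F D N : Type*} [Field F] [DivisionRing D] [Algebra F D]
    [Algebra.IsCentral F D] [Field N] [Algebra F N] [FiniteDimensional F N] [IsGalois F N]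
    (p k : ℕ) [hp : Fact p.Prime] (hk : p ^ k ∣ Nat.card (N ≃ₐ[F] N))
    (hnd : ¬ p ^ k ∣ repDim F D N) :
    ∃ (E1 E2 : IntermediateField F N) (h : E1 ≤ E2), repDim F D E1 = repDim F D E2 ∧
      ∃ σ : E2 →ₐ[F] E2, (∀ x : E1, σ (inclusion h x) = inclusion h x) ∧ ∃ y, σ y ≠ y := by
  by_contra hno
  have claim : ∀ (i : ℕ) (H : Subgroup (N ≃ₐ[F] N)), Nat.card H = p ^ i →
      p ^ i * repDim F D (fixedField H) =
        repDim F D (fixedField (⊥ : Subgroup (N ≃ₐ[F] N))) := by
    intro i
    induction i with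
    | zero =>
      intro H hH
      rw [pow_zero] at hH
      rw [Subgroup.card_eq_one.mp hH, pow_zero, one_mul]
    | succ i ih =>
      intro H hH
      obtain ⟨K, hK, hKH, hn, g, hgH, hgK⟩ := exists_normal_subgroup p i H hH
      have hle : fixedField H ≤ fixedField K := fixedField_antitone hKH
      rcases repDim_step (D := D) (fixedField H) (fixedField K) hle p (p ^ i) hp.out
        (pow_pos hp.out.pos i) (by rw [finrank_fixedField_eq_card, hK])
        (by rw [finrank_fixedField_eq_card, hH, pow_succ]) with h1 | h1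
      · exact absurd ⟨_, _, hle, h1, exists_restricted_aut H K hle g hgH hgK (hn g hgH)⟩ hno
      · rw [← ih K hK, h1, pow_succ, mul_assoc]
  obtain ⟨H, hH⟩ := Sylow.exists_subgroup_card_pow_prime p hk
  apply hnd
  have h1 := claim k H hH
  have h2 : repDim F D (fixedField (⊥ : Subgroup (N ≃ₐ[F] N))) = repDim F D N := by
    rw [fixedField_bot]
    exact repDim_congr topEquiv
  rw [← h2, ← h1]
  exact dvd_mul_right _ _

end Vale.Agent.P199
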