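import Mathlib
import Vale.Agent.Lib.P199.EndAlg
import Vale.Agent.Lib.P199.Galois

namespace Vale.Agent.P199

section semilinear

variable {F A L : Type*} [Field F] [Ring A] [Algebra F A] [Field L] [Algebra F L]

theorem pow_mul_semilin (ρ : L →ₐ[F] A) (σ : L →ₐ[F] L) (u : A)
    (hu : ∀ x, u * ρ x = ρ (σ x) * u) (n : ℕ) (x : L) :
    u ^ n * ρ x = ρ ((σ ^ n) x) * u ^ n := by
  induction n generalizing x with
  | zero => simp
  | succ n ih =>
    rw [pow_succ, mul_assoc, hu, ← mul_assoc, ih, mul_assoc]
    congr 2

/-- The product `ρ(L) F[u]` as a subalgebra. -/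
noncomputable def crossedSub (ρ : L →ₐ[F] A) (σ : L →ₐ[F] L) (u : A)
    (hu : ∀ x, u * ρ x = ρ (σ x) * u) : Subalgebra F A :=
  (Subalgebra.toSubmodule ρ.range * Subalgebra.toSubmodule (Algebra.adjoin F {u})).toSubalgebra
    (by
      have := Submodule.mul_mem_mul (M := Subalgebra.toSubmodule ρ.range)
        (N := Subalgebra.toSubmodule (Algebra.adjoin F {u})) (one_mem ρ.range)
        (one_mem (Algebra.adjoin F {u}))
      rwa [one_mul] at this)
    (by
      intro x y hx hy
      have hUR : Subalgebra.toSubmodule (Algebra.adjoin F {u}) * Subalgebra.toSubmodule ρ.range ≤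
          Subalgebra.toSubmodule ρ.range * Subalgebra.toSubmodule (Algebra.adjoin F {u}) := by
        rw [Submodule.mul_le]
        intro z hz w hw
        rw [Subalgebra.mem_toSubmodule] at hz hw
        obtain ⟨l, rfl⟩ := hw
        rw [Algebra.adjoin_singleton_eq_range_aeval] at hz
        obtain ⟨q, rfl⟩ := hz
        change (Polynomial.aeval u q) * ρ l ∈ _
        induction q using Polynomial.induction_on' with
        | add p q hp hq =>
          rw [map_add, add_mul]
          exact Submodule.add_mem _ hp hq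
        | monomial n a =>
          rw [Polynomial.aeval_monomial, mul_assoc, pow_mul_semilin ρ σ u hu, ← mul_assoc]
          refine Submodule.mul_mem_mul ?_ ?_
          · rw [← ρ.commutes, ← map_mul]
            exact ⟨_, rfl⟩
          · exact pow_mem (Algebra.subset_adjoin (Set.mem_singleton u)) n
      have hxy := Submodule.mul_mem_mul hx hy
      have hle : (Subalgebra.toSubmodule ρ.range *
          Subalgebra.toSubmodule (Algebra.adjoin F {u})) * (Subalgebra.toSubmodule ρ.range *
          Subalgebra.toSubmodule (Algebra.adjoin F {u})) ≤ Subalgebra.toSubmodule ρ.range *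
          Subalgebra.toSubmodule (Algebra.adjoin F {u}) := by
        set R := Subalgebra.toSubmodule ρ.range
        set U := Subalgebra.toSubmodule (Algebra.adjoin F {u})
        calc (R * U) * (R * U) = R * (U * R) * U := by simp only [mul_assoc]
          _ ≤ R * (R * U) * U := by gcongr
          _ = (R * R) * (U * U) := by simp only [mul_assoc]
          _ = R * U := by
            rw [Subalgebra.isIdempotentElem_toSubmodule ρ.range |>.eq,
              Subalgebra.isIdempotentElem_toSubmodule (Algebra.adjoin F {u}) |>.eq]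
      exact hle hxy)

theorem mem_crossedSub_left (ρ : L →ₐ[F] A) (σ : L →ₐ[F] L) (u : A)
    (hu : ∀ x, u * ρ x = ρ (σ x) * u) (x : L) : ρ x ∈ crossedSub ρ σ u hu := by
  have := Submodule.mul_mem_mul (M := Subalgebra.toSubmodule ρ.range)
        (N := Subalgebra.toSubmodule (Algebra.adjoin F {u})) (⟨x, rfl⟩ : ρ x ∈ ρ.range)
        (one_mem (Algebra.adjoin F {u}))
  rwa [mul_one] at this

theorem mem_crossedSub_right (ρ : L →ₐ[F] A) (σ : L →ₐ[F] L) (u : A)
    (hu : ∀ x, u * ρ x = ρ (σ x) * u) : u ∈ crossedSub ρ σ u hu := by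
  have := Submodule.mul_mem_mul (M := Subalgebra.toSubmodule ρ.range)
        (N := Subalgebra.toSubmodule (Algebra.adjoin F {u})) (one_mem ρ.range)
        (Algebra.subset_adjoin (Set.mem_singleton u) : u ∈ Algebra.adjoin F {u})
  rwa [one_mul] at this

theorem finite_crossedSub [FiniteDimensional F L] (ρ : L →ₐ[F] A) (σ : L →ₐ[F] L) (u : A)
    (hu : ∀ x, u * ρ x = ρ (σ x) * u) (hint : IsIntegral F u) :
    FiniteDimensional F (crossedSub ρ σ u hu) := by
  have h1 : (Subalgebra.toSubmodule ρ.range).FG := by
    have : (Subalgebra.toSubmodule ρ.range) = LinearMap.range ρ.toLinearMap := by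
      ext; simp
    rw [this]
    exact Submodule.fg_range _
  have h2 : (Subalgebra.toSubmodule (Algebra.adjoin F {u})).FG := hint.fg_adjoin_singleton
  have h3 := Submodule.FG.mul h1 h2
  exact Module.Finite.of_fg h3

theorem crossedSub_le (ρ : L →ₐ[F] A) (σ : L →ₐ[F] L) (u : A)
    (hu : ∀ x, u * ρ x = ρ (σ x) * u) (C : Subalgebra F A) (h1 : ∀ x, ρ x ∈ C) (h2 : u ∈ C) :
    crossedSub ρ σ u hu ≤ C := by
  intro z hz
  change z ∈ (Subalgebra.toSubmodule ρ.range *
    Subalgebra.toSubmodule (Algebra.adjoin F {u})) at hz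
  induction hz using Submodule.mul_induction_on' with
  | mem_mul_mem a ha b hb =>
    refine C.mul_mem ?_ ?_
    · obtain ⟨l, rfl⟩ := ha
      exact h1 l
    · exact Algebra.adjoin_le (Set.singleton_subset_iff.mpr h2) hb
  | add x _ y _ hx hy => exact C.add_mem hx hy

end semilinear

end Vale.Agent.P199
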