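import Mathlib
import Vale.Agent.Lib.P199.Crossed

open IntermediateField Polynomial

namespace Vale.Agent.P199

/-- the field `F(α)` generated by a root of the minimal polynomial of `a ∈ D` acts on `D` by
right multiplications -/
theorem hasRep_adjoin {F D N : Type*} [Field F] [DivisionRing D] [Algebra F D] [Field N]
    [Algebra F N] (a : D) (α : N) (hα : IsIntegral F α) (h : minpoly F α = minpoly F a) :
    HasRep F D F⟮α⟯ 1 := by
  let r : Module.End D D := LinearMap.toSpanSingleton D D a
  have hr : ∀ (q : F[X]) (d : D), (aeval r q) d = d * aeval a q := by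
    intro q d
    induction q using Polynomial.induction_on' with
    | add p q hp hq => rw [map_add, LinearMap.add_apply, hp, hq, map_add, mul_add]
    | monomial n c =>
      rw [aeval_monomial, aeval_monomial, Module.End.mul_apply]
      have : ∀ n : ℕ, ∀ d : D, (r ^ n) d = d * a ^ n := by
        intro n
        induction n with
        | zero => intro d; simp
        | succ n ih =>
          intro d
          rw [pow_succ', Module.End.mul_apply, ih, LinearMap.toSpanSingleton_apply, smul_eq_mul,
            pow_succ, mul_assoc]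
      rw [this, Module.algebraMap_end_apply, Algebra.smul_def, ← mul_assoc, ← mul_assoc,
        Algebra.commutes]
  let φ : (F[X] ⧸ Ideal.span {minpoly F α}) →ₐ[F] Module.End D D :=
    Ideal.Quotient.liftₐ _ (aeval r) (by
      intro q hq
      rw [Ideal.mem_span_singleton] at hq
      obtain ⟨s, rfl⟩ := hq
      rw [map_mul]
      have : aeval r (minpoly F α) = 0 := by
        ext
        rw [hr, h, minpoly.aeval, mul_zero, LinearMap.zero_apply]
      rw [this, zero_mul])
  let e : (F[X] ⧸ Ideal.span {minpoly F α}) ≃ₐ[F] F⟮α⟯ := adjoinRootEquivAdjoin F hα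
  have := hasRep_of_rep (φ.comp e.symm.toAlgHom)
  simpa using this

/-- from a good pair to a finite-dimensional crossed product inside a division ring -/
theorem exists_crossed_of_pair {F : Type*} {D : Type*} {N : Type*} [Field F] [DivisionRing D]
    [Algebra F D] [Algebra.IsCentral F D] [Field N] [Algebra F N] [FiniteDimensional F N]
    (halg : ∀ (m : ℕ) (u : Module.End D (Fin m → D)), IsIntegral F u)
    (E1 E2 : IntermediateField F N) (h : E1 ≤ E2) (hrep : repDim F D E1 = repDim F D E2)
    (σ : E2 →ₐ[F] E2) (hσ : ∀ x : E1, σ (inclusion h x) = inclusion h x) :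
    ∃ (m : ℕ) (B : Subalgebra F (Module.End D (Fin m → D))), FiniteDimensional F B ∧
      IsDomain B ∧
      ∃ (ρ : E2 →ₐ[F] B) (u : B), u ≠ 0 ∧ ∀ x, u * ρ x = ρ (σ x) * u := by
  obtain ⟨hpos, ⟨ρ⟩⟩ := repDim_pos (F := F) (D := D) (L := E2)
  set m := repDim F D E2 with hm
  have : Nonempty (Fin m) := ⟨⟨0, hpos⟩⟩
  obtain ⟨e, he⟩ := exists_conj ρ (ρ.comp σ) (by simp [hm])
  let u : Module.End D (Fin m → D) := e.toLinearMap
  have hu : ∀ x, u * ρ x = ρ (σ x) * u := by
    intro x
    apply LinearMap.ext
    intro v
    exact he x v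
  -- the centraliser of `ρ E1`
  let C : Subalgebra F (Module.End D (Fin m → D)) :=
    Subalgebra.centralizer F (Set.range fun x : E1 => ρ (inclusion h x))
  have hC1 : ∀ x, ρ x ∈ C := by
    intro x
    rw [Subalgebra.mem_centralizer_iff]
    rintro _ ⟨y, rfl⟩
    simp only
    rw [← map_mul, ← map_mul, mul_comm]
  have hC2 : u ∈ C := by
    rw [Subalgebra.mem_centralizer_iff]
    rintro _ ⟨y, rfl⟩
    simp only
    rw [hu, hσ]
  have hinj : ∀ z ∈ C, z ≠ 0 → Function.Injective z := by
    intro z hz hz0
    rw [← LinearMap.ker_eq_bot]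
    by_contra hker
    have htop := stable_eq_top (ρ.comp (inclusion h)) (by rw [hrep]; simp [hm])
      (LinearMap.ker z) hker (by
        intro x w hw
        rw [LinearMap.mem_ker] at hw ⊢
        rw [Subalgebra.mem_centralizer_iff] at hz
        have h1 := hz (ρ (inclusion h x)) ⟨x, rfl⟩
        have h2 := congrArg (fun f => f w) h1
        simp only [Module.End.mul_apply, hw, map_zero] at h2
        exact h2.symm)
    exact hz0 (LinearMap.ker_eq_top.mp htop)
  let B := crossedSub ρ σ u hu
  have hBC : B ≤ C := crossedSub_le ρ σ u hu C hC1 hC2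
  refine ⟨m, B, finite_crossedSub ρ σ u hu (halg m u), ?_, ?_⟩
  · have : NoZeroDivisors B := by
      refine ⟨fun {x y} hxy => ?_⟩
      by_contra hcon
      push Not at hcon
      obtain ⟨hx, hy⟩ := hcon
      have hx' : (x : Module.End D (Fin m → D)) ≠ 0 := fun hh => hx (Subtype.ext hh)
      have hy' : (y : Module.End D (Fin m → D)) ≠ 0 := fun hh => hy (Subtype.ext hh)
      apply hy'
      apply LinearMap.ext
      intro v
      apply hinj x (hBC x.2) hx'
      have := congrArg (fun f => f v) (congrArg Subtype.val hxy)
      simpa using this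
    exact NoZeroDivisors.to_isDomain B
  · refine ⟨ρ.codRestrict B (mem_crossedSub_left ρ σ u hu), ⟨u, mem_crossedSub_right ρ σ u hu⟩,
      ?_, ?_⟩
    · intro h0
      have h1 : u = 0 := congrArg Subtype.val h0
      obtain ⟨i⟩ := this
      have h2 : e (Pi.single i 1) = 0 := by
        change u (Pi.single i 1) = 0
        rw [h1]; rfl
      rw [LinearEquiv.map_eq_zero_iff] at h2
      have := congrFun h2 i
      simp at this
    · intro x
      exact Subtype.ext (hu x)

end Vale.Agent.P199
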