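import Mathlib
import Vale.Agent.Lib.P199.Pair

open IntermediateField Polynomial

namespace Vale.Agent.P199

universe u v

/-- Key structural result: a noncommutative division ring `D`, algebraic over its centre `F`,
such that every endomorphism of a finite-dimensional `D`-vector space is algebraic over `F`,
gives rise to a finite-dimensional division algebra `B` over `F` containing a finite extension
`L` of `F` and an element inducing a nontrivial endomorphism of `L`. -/
theorem exists_crossed {F : Type v} {D : Type u} [Field F] [DivisionRing D] [Algebra F D]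
    [Algebra.IsCentral F D] [Algebra.IsAlgebraic F D]
    (halg : ∀ (m : ℕ) (u : Module.End D (Fin m → D)), IsIntegral F u)
    (hnc : ∃ x y : D, x * y ≠ y * x) :
    ∃ (L : Type v) (_ : Field L) (_ : Algebra F L) (_ : FiniteDimensional F L)
      (σ : L →ₐ[F] L) (_ : ∃ y, σ y ≠ y) (B : Type u) (_ : DivisionRing B) (_ : Algebra F B)
      (_ : FiniteDimensional F B) (ρ : L →ₐ[F] B) (u : B), u ≠ 0 ∧
        ∀ x, u * ρ x = ρ (σ x) * u := by
  classical
  have hne : (⊥ : Subalgebra F D) ≠ ⊤ := by
    intro h
    obtain ⟨x, y, hxy⟩ := hnc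
    apply hxy
    have hx : x ∈ (⊥ : Subalgebra F D) := by rw [h]; trivial
    rw [Algebra.mem_bot] at hx
    obtain ⟨c, rfl⟩ := hx
    exact Algebra.commutes c y
  obtain ⟨a, ha, hsep⟩ := JacobsonNoether.exists_separable_and_not_isCentral' hne
  have hint : IsIntegral F a := hsep.isIntegral
  let f := minpoly F a
  have hfirr : Irreducible f := minpoly.irreducible hint
  have hfsep : f.Separable := hsep
  let N := f.SplittingField
  have hGal : IsGalois F N := IsGalois.of_separable_splitting_field hfsep
  -- a root of `f` in `N`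
  have hdeg : f.degree ≠ 0 := by
    have := hfirr.degree_pos
    exact this.ne'
  obtain ⟨α, hα⟩ := (SplittingField.splits f).exists_eval_eq_zero (by
    rwa [degree_map])
  have hα' : aeval α f = 0 := by
    rwa [eval_map_algebraMap] at hα
  have hmin : minpoly F α = f :=
    (minpoly.eq_of_irreducible_of_monic hfirr hα' (minpoly.monic hint)).symm
  have hαint : IsIntegral F α := Algebra.IsIntegral.isIntegral α
  have hrep : HasRep F D F⟮α⟯ 1 := hasRep_adjoin a α hαint hmin
  have hn : Module.finrank F F⟮α⟯ = f.natDegree := by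
    rw [adjoin.finrank hαint, hmin]
  have hn1 : f.natDegree ≠ 1 := by
    intro h1
    apply ha
    have := minpoly.mem_range_of_degree_eq_one F a (by
      rw [degree_eq_natDegree hfirr.ne_zero]
      exact_mod_cast h1)
    rw [Algebra.mem_bot]
    exact this
  -- numbers
  have hd : repDim F D N ∣ Module.finrank F⟮α⟯ N := by
    have h1 := repDim_dvd_mul (F := F) (D := D) (L := F⟮α⟯) (L' := N)
    have h2 : repDim F D F⟮α⟯ = 1 :=
      Nat.dvd_one.mp (repDim_dvd_of_hasRep hrep)
    rwa [h2, mul_one] at h1
  have hcard : Nat.card (N ≃ₐ[F] N) = f.natDegree * Module.finrank F⟮α⟯ N := by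
    rw [IsGalois.card_aut_eq_finrank, ← hn, Module.finrank_mul_finrank]
  let p := f.natDegree.minFac
  have hp : p.Prime := Nat.minFac_prime hn1
  haveI : Fact p.Prime := ⟨hp⟩
  have hpn : p ∣ f.natDegree := Nat.minFac_dvd _
  have hM : Module.finrank F⟮α⟯ N ≠ 0 := Module.finrank_pos.ne'
  let k := (Module.finrank F⟮α⟯ N).factorization p + 1
  have hk : p ^ k ∣ Nat.card (N ≃ₐ[F] N) := by
    rw [hcard, pow_succ, mul_comm]
    exact mul_dvd_mul hpn (Nat.ordProj_dvd _ _)
  have hnd : ¬ p ^ k ∣ repDim F D N := by
    intro hdvd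
    exact Nat.pow_succ_factorization_not_dvd hM hp (hdvd.trans hd)
  obtain ⟨E1, E2, h, hre, σ, hσ1, hσ2⟩ := exists_good_pair (D := D) p k hk hnd
  obtain ⟨m, B, hfd, hdom, ρ, u, hu0, hu⟩ :=
    exists_crossed_of_pair halg E1 E2 h hre σ hσ1
  exact ⟨E2, inferInstance, inferInstance, inferInstance, σ, hσ2, B,
    divisionRingOfFiniteDimensional F B, inferInstance, hfd, ρ, u, hu0, hu⟩

/-- The case of an uncountable centre. -/
theorem exists_crossed_of_uncountable {F : Type v} {D : Type u} [Field F] [Uncountable F]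
    [DivisionRing D] [Algebra F D] [Algebra.IsCentral F D] [Algebra.IsAlgebraic F D]
    (hnc : ∃ x y : D, x * y ≠ y * x) :
    ∃ (L : Type v) (_ : Field L) (_ : Algebra F L) (_ : FiniteDimensional F L)
      (σ : L →ₐ[F] L) (_ : ∃ y, σ y ≠ y) (B : Type u) (_ : DivisionRing B) (_ : Algebra F B)
      (_ : FiniteDimensional F B) (ρ : L →ₐ[F] B) (u : B), u ≠ 0 ∧
        ∀ x, u * ρ x = ρ (σ x) * u :=
  exists_crossed (fun m u => (isAlgebraic_end (F := F) u).isIntegral) hnc

end Vale.Agent.P199
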