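import Mathlib
import Vale.Agent.Lib.P199.Main

open Polynomial

namespace Vale.Agent.P199

universe u v

/-- A finite-dimensional algebra over a field `Z` algebraic over `k` is locally finite over `k`. -/
theorem locallyFinite_of_finite {k Z E : Type*} [Field k] [Field Z] [Algebra k Z]
    [Algebra.IsAlgebraic k Z] [Ring E] [Algebra Z E] [Algebra k E] [IsScalarTower k Z E]
    [FiniteDimensional Z E] (S : Finset E) :
    Module.Finite k (Algebra.adjoin k (S : Set E)) := by
  classical
  let b := Module.finBasis Z E
  let n := Module.finrank Z E
  let φ : E →ₐ[Z] Matrix (Fin n) (Fin n) Z := Algebra.leftMulMatrix b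
  have hφ : Function.Injective φ := Algebra.leftMulMatrix_injective b
  let T : Finset Z := S.biUnion fun s => Finset.univ.image fun ij : Fin n × Fin n => φ s ij.1 ij.2
  let Z0 : IntermediateField k Z := IntermediateField.adjoin k (T : Set Z)
  have hfin : FiniteDimensional k Z0 :=
    IntermediateField.finiteDimensional_adjoin fun x _ => Algebra.IsIntegral.isIntegral x
  let ι : Matrix (Fin n) (Fin n) Z0 →ₐ[k] Matrix (Fin n) (Fin n) Z := Z0.val.mapMatrix
  let R : Subalgebra k E := ι.range.comap (φ.restrictScalars k)
  have hle : Algebra.adjoin k (S : Set E) ≤ R := by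
    refine Algebra.adjoin_le fun s hs => ?_
    refine ⟨fun i j => ⟨φ s i j, IntermediateField.subset_adjoin k _ ?_⟩, ?_⟩
    · simp only [T, Finset.coe_biUnion, Set.mem_iUnion]
      refine ⟨s, hs, ?_⟩
      simp only [Finset.coe_image, Set.mem_image]
      exact ⟨(i, j), by simp, rfl⟩
    · ext i j
      rfl
  have hR : FiniteDimensional k R := by
    let ψ : R →ₗ[k] ι.range :=
      { toFun := fun x => ⟨φ x, x.2⟩
        map_add' := fun x y => Subtype.ext (map_add φ _ _)
        map_smul' := fun c x => Subtype.ext (by
          change φ (c • (x : E)) = c • φ (x : E)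
          exact map_smul (φ.restrictScalars k) c _) }
    have hψ : Function.Injective ψ := by
      intro x y hxy
      apply Subtype.ext
      apply hφ
      exact congrArg Subtype.val hxy
    have : FiniteDimensional k ι.range :=
      inferInstanceAs (FiniteDimensional k (LinearMap.range ι.toLinearMap))
    exact FiniteDimensional.of_injective ψ hψ
  have hinj : Function.Injective (Subalgebra.inclusion hle).toLinearMap :=
    Subalgebra.inclusion_injective hle
  exact FiniteDimensional.of_injective _ hinj

/-- a finite-dimensional subalgebra of a division ring is a division ring -/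
theorem comm_of_adjoin_finite {k : Type v} {E : Type u} [Field k] [DivisionRing E] [Algebra k E]
    (hk : ∀ (B : Type u) [DivisionRing B] [Algebra k B] [FiniteDimensional k B] (x y : B),
      x * y = y * x) (x y : E)
    (hfin : Module.Finite k (Algebra.adjoin k ({x, y} : Set E))) : x * y = y * x := by
  let B := Algebra.adjoin k ({x, y} : Set E)
  let _ : DivisionRing B := divisionRingOfFiniteDimensional k B
  have hx : x ∈ B := Algebra.subset_adjoin (by simp)
  have hy : y ∈ B := Algebra.subset_adjoin (by simp)
  have := @hk B (divisionRingOfFiniteDimensional k B) _ hfin ⟨x, hx⟩ ⟨y, hy⟩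
  exact congrArg Subtype.val this

/-- Let `k` be an uncountable field all of whose finite-dimensional division algebras are
commutative.  Then every division algebra which is algebraic over `k` is commutative. -/
theorem commute_of_uncountable {k : Type v} {D : Type u} [Field k] [Uncountable k]
    [DivisionRing D] [Algebra k D] [Algebra.IsAlgebraic k D]
    (hk : ∀ (B : Type u) [DivisionRing B] [Algebra k B] [FiniteDimensional k B] (x y : B),
      x * y = y * x) (x y : D) : x * y = y * x := by
  by_contra hxy
  let Z := Subring.center D
  let _ : Algebra k Z := ((algebraMap k D).codRestrict Z fun c => by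
    rw [Subring.mem_center_iff]
    intro g
    exact (Algebra.commutes c g).symm).toAlgebra
  have : IsScalarTower k Z D := IsScalarTower.of_algebraMap_eq fun c => rfl
  have : Algebra.IsAlgebraic Z D := Algebra.IsAlgebraic.tower_top (K := k) Z
  have hinj : Function.Injective (algebraMap k Z) := (algebraMap k Z).injective
  have : Uncountable Z := hinj.uncountable
  have : Algebra.IsAlgebraic k Z := Algebra.IsAlgebraic.tower_bot k Z D
  have : Algebra.IsCentral Z D := by
    constructor
    intro z hz
    rw [Subalgebra.mem_center_iff] at hz
    rw [Algebra.mem_bot]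
    exact ⟨⟨z, Subring.mem_center_iff.mpr hz⟩, rfl⟩
  obtain ⟨L, _, _, _, σ, ⟨y, hy⟩, B, _, _, _, ρ, w, hw, hwρ⟩ :=
    exists_crossed_of_uncountable (F := Z) (D := D) ⟨_, _, hxy⟩
  let _ : Algebra k B := Algebra.compHom B (algebraMap k Z)
  have : IsScalarTower k Z B := IsScalarTower.of_algebraMap_eq fun c => rfl
  classical
  have hfin := locallyFinite_of_finite (k := k) (Z := Z) (E := B) {w, ρ y}
  have hc : (({w, ρ y} : Finset B) : Set B) = {w, ρ y} := by simp
  rw [hc] at hfin
  have hcomm := comm_of_adjoin_finite hk w (ρ y) hfin
  rw [hwρ y] at hcomm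
  have h1 := mul_right_cancel₀ hw hcomm
  exact hy (ρ.injective h1)

end Vale.Agent.P199
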