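import Mathlib
import Vale.Agent.Lib.P199.Commute

open TensorProduct Polynomial

namespace Vale.Agent.P199

universe u v

section gamma

variable {F D L V : Type*} [Field F] [DivisionRing D] [Algebra F D] [Field L] [Algebra F L]
  [AddCommGroup V] [Module D V] [Module F V] [IsScalarTower F D V]

/-- the commutant of the action of `L` -/
def commutant (ρ : L →ₐ[F] Module.End D V) : Subalgebra F (Module.End D V) :=
  Subalgebra.centralizer F (Set.range ρ)

theorem mem_commutant (ρ : L →ₐ[F] Module.End D V) (z : Module.End D V) :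
    z ∈ commutant ρ ↔ ∀ x v, ρ x (z v) = z (ρ x v) := by
  rw [commutant, Subalgebra.mem_centralizer_iff]
  constructor
  · intro h x v
    exact congrArg (fun f => f v) (h (ρ x) ⟨x, rfl⟩)
  · rintro h _ ⟨x, rfl⟩
    exact LinearMap.ext fun v => h x v

/-- elements of the commutant are exactly the `D ⊗[F] L`-linear endomorphisms -/
theorem mem_commutant_of_linear (ρ : L →ₐ[F] Module.End D V)
    (g : letI := repModule ρ; V →ₗ[D ⊗[F] L] V) :
    ∃ z ∈ commutant ρ, ∀ v, z v = g v := by
  have key : ∀ (d : D) (x : L) (v : V), g (d • ρ x v) = d • ρ x (g v) := by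
    intro d x v
    have h := @LinearMap.map_smul (D ⊗[F] L) V V _ _ _ (repModule ρ) (repModule ρ) g
      (d ⊗ₜ x) v
    erw [repModule_smul ρ d x v, repModule_smul ρ d x (g v)] at h
    exact h
  let _ := repModule ρ
  refine ⟨{ toFun := g, map_add' := g.map_add, map_smul' := fun d v => ?_ }, ?_, fun v => rfl⟩
  · have := key d 1 v
    simpa using this
  · rw [mem_commutant]
    intro x v
    have := key 1 x v
    simpa using this.symm

/-- `V` is spanned over the commutant by `[L : F] / dim_D V` elements. -/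
theorem exists_span_commutant [Algebra.IsCentral F D] [FiniteDimensional F L]
    [Module.Finite D V] [Nontrivial V] (ρ : L →ₐ[F] Module.End D V)
    (hV : Module.finrank D V ≤ repDim F D L) :
    ∃ (r : ℕ) (w : Fin r → V), r ≤ Module.finrank F L ∧
      ∀ v : V, ∃ g : Fin r → commutant ρ, v = ∑ i, (g i : Module.End D V) (w i) := by
  classical
  have := isSimpleRing_tensor (F := F) (D := D) (L := L)
  have := isArtinian_tensor (F := F) (D := D) (L := L)
  letI := repModule ρ
  have := repModule_tower ρ
  have := isSimpleModule_of_min ρ hV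
  have htower : IsScalarTower D (D ⊗[F] L) (D ⊗[F] L) := by
    refine ⟨fun d t v => ?_⟩
    simp [smul_mul_assoc]
  obtain ⟨n, hn, S, hS, ⟨e⟩⟩ :=
    (IsSimpleRing.isIsotypic (D ⊗[F] L) (D ⊗[F] L)).linearEquiv_fun
  obtain ⟨e'⟩ := simple_iso (T := D ⊗[F] L) S V
  let E : (D ⊗[F] L) ≃ₗ[D ⊗[F] L] (Fin n → V) := e.trans (LinearEquiv.piCongrRight fun _ => e')
  have hdim : Module.finrank F L = n * Module.finrank D V := by
    have h1 : Module.finrank D (D ⊗[F] L) = Module.finrank D (Fin n → V) :=
      LinearEquiv.finrank_eq (E.restrictScalars D)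
    rw [Module.finrank_pi_fintype, Module.finrank_eq_card_basis
      (Algebra.TensorProduct.basis D (Module.finBasis F L))] at h1
    simpa using h1
  refine ⟨n, E 1, ?_, fun v => ?_⟩
  · rw [hdim]
    exact Nat.le_mul_of_pos_right n Module.finrank_pos
  · let G : (Fin n → V) →ₗ[D ⊗[F] L] V :=
      (LinearMap.toSpanSingleton (D ⊗[F] L) V v).comp E.symm.toLinearMap
    have hG : G (E 1) = v := by
      simp [G]
    have h2 : ∀ i : Fin n, ∃ z ∈ commutant ρ, ∀ y, z y = G (Pi.single i y) := fun i => by
      obtain ⟨z, hz, hz'⟩ := mem_commutant_of_linear ρ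
        (G.comp (LinearMap.single (D ⊗[F] L) (fun _ => V) i))
      exact ⟨z, hz, fun y => by rw [hz']; rfl⟩
    choose z hz hz' using h2
    refine ⟨fun i => ⟨z i, hz i⟩, ?_⟩
    simp only [hz']
    rw [← map_sum, ← hG]
    congr 1
    exact (Finset.univ_sum_single (E 1)).symm

end gamma

end Vale.Agent.P199
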