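import Mathlib
import Vale.Agent.Lib.P199.Commutant

open TensorProduct Polynomial

namespace Vale.Agent.P199

universe u v

section gamma

variable {F D L V : Type*} [Field F] [DivisionRing D] [Algebra F D] [Field L] [Algebra F L]
  [AddCommGroup V] [Module D V] [Module F V] [IsScalarTower F D V]

/-- nonzero elements of the commutant of a minimal representation are invertible in the
commutant -/
theorem commutant_isUnit_or_zero [Module.Finite D V] (ρ : L →ₐ[F] Module.End D V)
    (hV : Module.finrank D V ≤ repDim F D L) (z : commutant ρ) : IsUnit z ∨ z = 0 := by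
  by_cases hz : z = 0
  · exact Or.inr hz
  left
  have hz0 : (z : Module.End D V) ≠ 0 := fun h => hz (Subtype.ext h)
  have hzc := (mem_commutant ρ z).mp z.2
  have hinj : Function.Injective (z : Module.End D V) := by
    rw [← LinearMap.ker_eq_bot]
    by_contra hker
    have htop := stable_eq_top ρ hV (LinearMap.ker (z : Module.End D V)) hker (by
      intro x w hw
      rw [LinearMap.mem_ker] at hw ⊢
      rw [← hzc, hw, map_zero])
    exact hz0 (LinearMap.ker_eq_top.mp htop)
  let e : V ≃ₗ[D] V := LinearEquiv.ofInjectiveEndo (z : Module.End D V) hinj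
  have he : ∀ v, e v = (z : Module.End D V) v := fun v => rfl
  have hsymm : e.symm.toLinearMap ∈ commutant ρ := by
    rw [mem_commutant]
    intro x v
    apply e.injective
    change e (ρ x (e.symm v)) = e (e.symm (ρ x v))
    rw [he, ← hzc, ← he, e.apply_symm_apply, e.apply_symm_apply]
  refine ⟨⟨z, ⟨e.symm.toLinearMap, hsymm⟩, ?_, ?_⟩, rfl⟩
  · apply Subtype.ext
    apply LinearMap.ext
    intro v
    exact e.apply_symm_apply v
  · apply Subtype.ext
    apply LinearMap.ext
    intro v
    exact e.symm_apply_apply v

theorem tmul_indep {F G M ι : Type*} [Field F] [Field G] [Algebra F G] [AddCommGroup M]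
    [Module F M] [Fintype ι] (d : ι → M) (hd : LinearIndependent F d) (g : ι → G)
    (h : ∑ i, d i ⊗ₜ[F] g i = 0) : ∀ i, g i = 0 := by
  have h1 : ∑ i, g i • ((1 : G) ⊗ₜ[F] d i) = 0 := by
    have := congrArg (TensorProduct.comm F M G) h
    rw [map_sum, map_zero] at this
    rw [← this]
    refine Finset.sum_congr rfl fun i _ => ?_
    rw [TensorProduct.comm_tmul, smul_tmul', smul_eq_mul, mul_one]
  have h2 := Module.Flat.linearIndependent_one_tmul (S := G) hd
  rw [Fintype.linearIndependent_iff] at h2
  exact h2 g h1

theorem finite_of_commutant_comm [Algebra.IsCentral F D] [FiniteDimensional F L]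
    [Module.Finite D V] [Nontrivial V] (ρ : L →ₐ[F] Module.End D V)
    (hV : Module.finrank D V ≤ repDim F D L)
    (hcomm : ∀ a b : commutant ρ, a * b = b * a) :
    Module.Finite F D ∧ Module.finrank F D ≤ (Module.finrank F L) ^ 2 := by
  classical
  let Γ := commutant ρ
  let _ : CommRing Γ := { (inferInstance : Ring Γ) with mul_comm := hcomm }
  have : Nontrivial Γ := by
    refine ⟨0, 1, ?_⟩
    intro h
    obtain ⟨v, hv⟩ := exists_ne (0 : V)
    apply hv
    have := congrArg (fun f : Γ => (f : Module.End D V) v) h
    simpa using this.symm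
  let _ : Field Γ := Field.ofIsUnitOrEqZero (commutant_isUnit_or_zero ρ hV)
  let A : Algebra F Γ := (commutant ρ).algebra
  have hsimple : IsSimpleRing (D ⊗[F] Γ) := isSimpleRing_tensor
  let ψ : D ⊗[F] Γ →ₐ[F] Module.End F V := repAct (commutant ρ).val
  have hψ : Function.Injective ψ := RingHom.injective ψ.toRingHom
  obtain ⟨r, w, hr, hw⟩ := exists_span_commutant ρ hV
  let _ : Module Γ V := Subalgebra.moduleLeft (commutant ρ)
  have hsm : ∀ (g : Γ) (v : V), g • v = (g : Module.End D V) v := fun g v => rfl
  have hspan : Submodule.span Γ (Set.range w) = ⊤ := by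
    rw [Submodule.eq_top_iff']
    intro v
    obtain ⟨g, hg⟩ := hw v
    rw [hg]
    refine Submodule.sum_mem _ fun i _ => ?_
    rw [← hsm]
    exact Submodule.smul_mem _ _ (Submodule.subset_span ⟨i, rfl⟩)
  have hfinV : Module.Finite Γ V := ⟨⟨Finset.univ.image w, by
    rw [Finset.coe_image, Finset.coe_univ, Set.image_univ]; exact hspan⟩⟩
  have hrank : Module.finrank Γ V ≤ Module.finrank F L := by
    refine le_trans ?_ hr
    have := finrank_range_le_card (R := Γ) w
    rw [Set.finrank, hspan, finrank_top, Fintype.card_fin] at this
    exact this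
  have hscc : SMulCommClass Γ D V := ⟨fun g d v => by
    rw [hsm, hsm, map_smul]⟩
  -- operators of `D`
  let T : D → Module.End Γ V := fun d =>
    { toFun := fun v => d • v
      map_add' := fun x y => smul_add d x y
      map_smul' := fun g v => by
        simp only [RingHom.id_apply]
        exact (smul_comm g d v).symm }
  have hle : ∀ s : Finset D, (LinearIndependent F fun i : s => (i : D)) →
      s.card ≤ (Module.finrank F L) ^ 2 := by
    intro s hs
    have hli : LinearIndependent Γ fun i : s => T i := by
      rw [Fintype.linearIndependent_iff]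
      intro g hg
      -- the corresponding element of the tensor product acts as zero
      have hz : ψ (∑ i : s, (i : D) ⊗ₜ[F] g i) = 0 := by
        apply LinearMap.ext
        intro v
        rw [map_sum, LinearMap.sum_apply, LinearMap.zero_apply]
        have h1 := congrArg (fun f => f v) hg
        simp only [LinearMap.sum_apply, LinearMap.smul_apply, LinearMap.zero_apply] at h1
        rw [← h1]
        refine Finset.sum_congr rfl fun i _ => ?_
        change repAct (commutant ρ).val ((i : D) ⊗ₜ g i) v = g i • ((i : D) • v)
        rw [repAct_tmul, smul_comm]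
        rfl
      have hz' : (∑ i : s, (i : D) ⊗ₜ[F] g i) = 0 := hψ (by rw [hz, map_zero])
      exact tmul_indep _ hs g hz'
    have := hli.fintype_card_le_finrank
    rw [Fintype.card_coe] at this
    refine this.trans ?_
    rw [Module.finrank_linearMap, ← pow_two]
    exact Nat.pow_le_pow_left hrank 2
  have h1 := rank_le hle
  refine ⟨?_, ?_⟩
  · rw [← Module.rank_lt_aleph0_iff]
    exact h1.trans_lt (Cardinal.natCast_lt_aleph0)
  · exact Module.finrank_le_of_rank_le h1

end gamma

end Vale.Agent.P199
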