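import Mathlib
import Vale.Agent.Lib.P199.FiniteOfComm

open TensorProduct Polynomial

namespace Vale.Agent.P199

universe u v w

/-- Version over the centre: if some finite extension `L` of the (uncountable) centre `F` has only
commutative finite-dimensional division algebras, then an algebraic `D` is finite-dimensional. -/
theorem finite_over_center {F : Type v} {L : Type w} {D : Type u} [Field F] [Uncountable F]
    [DivisionRing D] [Algebra F D] [Algebra.IsCentral F D] [Algebra.IsAlgebraic F D]
    [Field L] [Algebra F L] [FiniteDimensional F L]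
    (hL : ∀ (B : Type u) [DivisionRing B] [Algebra L B] [FiniteDimensional L B] (x y : B),
      x * y = y * x) :
    Module.Finite F D ∧ Module.finrank F D ≤ (Module.finrank F L) ^ 2 := by
  classical
  obtain ⟨hpos, ⟨ρ⟩⟩ := repDim_pos (F := F) (D := D) (L := L)
  set m := repDim F D L with hm
  have : Nonempty (Fin m) := ⟨⟨0, hpos⟩⟩
  have hV : Module.finrank D (Fin m → D) ≤ repDim F D L := by simp [hm]
  refine finite_of_commutant_comm ρ hV fun a b => ?_
  -- the commutant is a division algebra over `L`, algebraic over `L`
  let _ : DivisionRing (commutant ρ) :=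
    DivisionRing.ofIsUnitOrEqZero (commutant_isUnit_or_zero ρ hV)
  have hmem : ∀ x, ρ x ∈ commutant ρ := by
    intro x
    rw [mem_commutant]
    intro y v
    rw [← Module.End.mul_apply, ← Module.End.mul_apply, ← map_mul, ← map_mul, mul_comm]
  let f : L →ₐ[F] commutant ρ := ρ.codRestrict (commutant ρ) hmem
  let _ : Algebra L (commutant ρ) := f.toRingHom.toAlgebra' fun c x => by
    apply Subtype.ext
    apply LinearMap.ext
    intro v
    exact (mem_commutant ρ x).mp x.2 c v
  have : IsScalarTower F L (commutant ρ) := IsScalarTower.of_algebraMap_eq fun c => by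
    exact (f.commutes c).symm
  have : Algebra.IsAlgebraic F (commutant ρ) := by
    refine ⟨fun z => ?_⟩
    have h1 := isAlgebraic_end (F := F) (D := D) (V := Fin m → D) z
    exact (isAlgebraic_algHom_iff (commutant ρ).val Subtype.val_injective).mp h1
  have : Algebra.IsAlgebraic L (commutant ρ) := Algebra.IsAlgebraic.tower_top (K := F) L
  have : Uncountable L := (algebraMap F L).injective.uncountable
  exact commute_of_uncountable hL a b

/-- The main theorem. -/
theorem main {k : Type v} {k' : Type w} {D : Type u} [Field k] [Uncountable k] [Field k']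
    [Algebra k k'] [FiniteDimensional k k'] [DivisionRing D] [Algebra k D]
    [Algebra.IsAlgebraic k D]
    (hk' : ∀ (B : Type u) [DivisionRing B] [Algebra k' B] [FiniteDimensional k' B] (x y : B),
      x * y = y * x) :
    Module.Finite (Subring.center D) D ∧
      Module.finrank (Subring.center D) D ≤ (Module.finrank k k') ^ 2 ∧
      ∀ S : Finset D, Module.Finite k (Algebra.adjoin k (S : Set D)) := by
  classical
  let Z := Subring.center D
  let _ : Algebra k Z := ((algebraMap k D).codRestrict Z fun c => by
    rw [Subring.mem_center_iff]
    intro g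
    exact (Algebra.commutes c g).symm).toAlgebra
  have : IsScalarTower k Z D := IsScalarTower.of_algebraMap_eq fun c => rfl
  have : Algebra.IsAlgebraic Z D := Algebra.IsAlgebraic.tower_top (K := k) Z
  have hinj : Function.Injective (algebraMap k Z) := (algebraMap k Z).injective
  have : Uncountable Z := hinj.uncountable
  have : Algebra.IsAlgebraic k Z := Algebra.IsAlgebraic.tower_bot k Z D
  have : Algebra.IsCentral Z D := by
    constructor
    intro z hz
    rw [Subalgebra.mem_center_iff] at hz
    rw [Algebra.mem_bot]
    exact ⟨⟨z, Subring.mem_center_iff.mpr hz⟩, rfl⟩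
  -- a compositum `L` of `Z` and `k'`
  have : Nontrivial (Z ⊗[k] k') := inferInstance
  obtain ⟨M, hM⟩ := Ideal.exists_maximal (Z ⊗[k] k')
  let L := (Z ⊗[k] k') ⧸ M
  let _ : Field L := Ideal.Quotient.field M
  let _ : Algebra k' L := ((Ideal.Quotient.mk M).comp
    (Algebra.TensorProduct.includeRight : k' →ₐ[k] Z ⊗[k] k').toRingHom).toAlgebra
  have : FiniteDimensional Z L := inferInstance
  have hfin : Module.finrank Z L ≤ Module.finrank k k' := by
    have h1 : Module.finrank Z (Z ⊗[k] k') = Module.finrank k k' := Module.finrank_baseChange
    rw [← h1]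
    exact Submodule.finrank_quotient_le (M.restrictScalars Z)
  have : IsScalarTower k Z L := inferInstance
  have : IsScalarTower k k' L := IsScalarTower.of_algebraMap_eq fun c => by
    change algebraMap k L c = Ideal.Quotient.mk M ((1 : Z) ⊗ₜ[k] algebraMap k k' c)
    rw [← Algebra.TensorProduct.algebraMap_apply']
    rfl
  have : Algebra.IsAlgebraic k L := Algebra.IsAlgebraic.trans k Z L
  have : Algebra.IsAlgebraic k' L := Algebra.IsAlgebraic.tower_top (K := k) k'
  have hL : ∀ (B : Type u) [DivisionRing B] [Algebra L B] [FiniteDimensional L B] (x y : B),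
      x * y = y * x := by
    intro B _ _ _ x y
    let _ : Algebra k' B := Algebra.compHom B (algebraMap k' L)
    have : IsScalarTower k' L B := IsScalarTower.of_algebraMap_eq fun c => rfl
    have hfin := locallyFinite_of_finite (k := k') (Z := L) (E := B) {x, y}
    have hc : (({x, y} : Finset B) : Set B) = {x, y} := by simp
    rw [hc] at hfin
    exact comm_of_adjoin_finite hk' x y hfin
  obtain ⟨h1, h2⟩ := finite_over_center (F := Z) (L := L) (D := D) hL
  refine ⟨h1, h2.trans (Nat.pow_le_pow_left hfin 2), fun S => ?_⟩
  exact locallyFinite_of_finite (k := k) (Z := Z) (E := D) S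

end Vale.Agent.P199
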